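import Vale.Agent.P127.HoelderSelection

/-!
P127: Kakeya sets with a Hölder selection on an open set of directions.
-/

open MeasureTheory Set
open scoped NNReal

theorem Vale.Agent.Results.P127.HoelderSelection.result :
    ∀ (n : ℕ), 2 ≤ n → ∀ (K U : Set (EuclideanSpace ℝ (Fin n)))
      (a : EuclideanSpace ℝ (Fin n) → EuclideanSpace ℝ (Fin n)) (C α : ℝ≥0),
      IsOpen U → (U ∩ Metric.sphere 0 1).Nonempty → (n : ℝ) - 2 < ((n : ℝ) - 1) * α →
      HolderOnWith C α a (U ∩ Metric.sphere 0 1) →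
      (∀ e ∈ U ∩ Metric.sphere 0 1, ∀ t ∈ Icc (0 : ℝ) 1, a e + t • e ∈ K) →
      0 < volume K ∧ dimH K = n := by
  intro n hn K U a C α hU hne hα ha hseg
  obtain ⟨m, rfl⟩ : ∃ m, n = m + 1 := ⟨n - 1, by omega⟩
  have hK := Vale.Agent.P127.Hoelder.measure_pos_of_hoelder_selection (m := m) (by omega) K U a C α
    hU hne (by push_cast at hα; ring_nf at hα ⊢; linarith) ha hseg
  refine ⟨hK, ?_⟩
  rw [Vale.Agent.P127.kakeya_dimH volume K hK.ne', finrank_euclideanSpace_fin]
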