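import Vale.Agent.P127.LipschitzSelection

/-!
P127: Kakeya sets with a Lipschitz selection on a positive-measure set of directions.
-/

open MeasureTheory Set
open scoped NNReal

theorem Vale.Agent.Results.P127.LipschitzSelection.result :
    ∀ (n : ℕ), 0 < n → ∀ (K D : Set (EuclideanSpace ℝ (Fin n)))
      (a : EuclideanSpace ℝ (Fin n) → EuclideanSpace ℝ (Fin n)) (C : ℝ≥0),
      LipschitzOnWith C a D →
      (∀ e ∈ D, ∀ t ∈ Icc (0 : ℝ) 1, a e + t • e ∈ K) →
      0 < volume {x : EuclideanSpace ℝ (Fin n) | ‖x‖⁻¹ • x ∈ D} →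
      0 < volume K ∧ dimH K = n := by
  intro n hn K D a C ha hseg hD
  have : Nonempty (Fin n) := ⟨⟨0, hn⟩⟩
  have h := Vale.Agent.P127.kakeya_measure_ne_zero volume K D a C ha hseg hD.ne'
  refine ⟨pos_iff_ne_zero.2 h, ?_⟩
  rw [Vale.Agent.P127.kakeya_dimH volume K h, finrank_euclideanSpace_fin]
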