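import Vale.Agent.P127.Smooth.Main

/-!
P127, first question: the Kakeya maximal estimate for smooth selections of tubes.
-/

open MeasureTheory
open scoped ENNReal
open Vale.Agent.P127.Smooth

theorem Vale.Agent.Results.P127.SmoothSelectionMaximal.result :
    ∀ (n : ℕ), 2 ≤ n → ∀ (ε : ℝ), 0 < ε →
      (∀ k : ℕ, 1 ≤ k → ∃ C : ℝ≥0∞, C ≠ ⊤ ∧
        ∀ (a : EuclideanSpace ℝ (Fin n) → EuclideanSpace ℝ (Fin n)) (M δ : ℝ),
          1 ≤ M → 0 < δ → δ < 1 →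
          ContDiffOn ℝ k (fun x => a (‖x‖⁻¹ • x)) {x | x ≠ 0} →
          (∀ x, 1 / (2 * Real.sqrt n) ≤ ‖x‖ → ‖x‖ ≤ Real.sqrt n →
            ‖iteratedFDeriv ℝ k (fun x => a (‖x‖⁻¹ • x)) x‖ ≤ M) →
          ∀ f : EuclideanSpace ℝ (Fin n) → ℝ≥0∞, Measurable f →
            selectionEnergy δ a f ≤
              C * ENNReal.ofReal
                  (M ^ (((n : ℝ) - 1) / k) * δ ^ (-(((n : ℝ) - 1) / k + ε))) *
                ∫⁻ y, f y ^ (n : ℝ)) ∧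
      (∀ a : EuclideanSpace ℝ (Fin n) → EuclideanSpace ℝ (Fin n), ContDiff ℝ (⊤ : ℕ∞) a →
        ∃ C : ℝ≥0∞, C ≠ ⊤ ∧ ∀ δ : ℝ, 0 < δ → δ < 1 →
          ∀ f : EuclideanSpace ℝ (Fin n) → ℝ≥0∞, Measurable f →
            selectionEnergy δ a f ≤
              C * ENNReal.ofReal (δ ^ (-ε)) * ∫⁻ y, f y ^ (n : ℝ)) := by
  intro n hn ε hε
  obtain ⟨m, rfl⟩ : ∃ m, n = m + 1 := ⟨n - 1, by omega⟩
  unfold selectionEnergy
  push_cast
  simp only [add_sub_cancel_right]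
  exact ⟨fun k hk => maximal_bound m k (by omega) hk hε,
    fun a ha => maximal_smooth m (by omega) a ha hε⟩
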